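import Vale.Agent.P231.W.Defs

/-!
# P231, block H: the volume in exponential coordinates

The cut locus is a null set, hence `vol M = ∫_{|ξ| < D} |det d exp|`.
-/

set_option maxSynthPendingDepth 3
set_option linter.unusedSectionVars false
set_option linter.unusedVariables false

open Bundle Manifold Set Filter Module Topology MeasureTheory
open scoped ContDiff Manifold Topology ENNReal

namespace Vale.Agent.P231.WH

noncomputable section

open Vale.Agent.P234 Vale.Agent.P231

variable {E : Type*} [NormedAddCommGroup E] [NormedSpace ℝ E]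
  {M : Type*} [MetricSpace M] [ChartedSpace E M]
  [RiemannianBundle (fun x : M => TangentSpace 𝓘(ℝ, E) x)]
  {e : ∀ x : M, TangentSpace 𝓘(ℝ, E) x → M}
  [FiniteDimensional ℝ E] [IsManifold 𝓘(ℝ, E) ∞ M]
  [IsContMDiffRiemannianBundle 𝓘(ℝ, E) ∞ E (fun x : M => TangentSpace 𝓘(ℝ, E) x)]

/-- locally the exponential map sends null sets to null sets -/
theorem null_local [CompactSpace M] [MeasurableSpace M] [BorelSpace M] (F : Facts e) (x : M)
    (ξ₀ : Eu E) : ∃ V ∈ 𝓝 ξ₀, ∀ S ⊆ V, volume S = 0 →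
      riemVol (finrank ℝ E) M (ef e x '' S) = 0 := by
  have he := F.isExp
  set y := ef e x ξ₀ with hy
  obtain ⟨δ, hδ, hδS⟩ := riemVol_small F y one_pos
  set ψ := areaPsi e x y with hψ
  have hψd : ContDiffAt ℝ ∞ ψ ξ₀ := (area_psi F x rfl).1
  have hψ1 : ContDiffAt ℝ 1 ψ ξ₀ := hψd.of_le (by simp only [WithTop.one_le_coe, le_top])
  have hψ0 : ψ ξ₀ = 0 := by
    have h1 : logMap e y (e x (areaA (E := E) x ξ₀)) = 0 := area_logMap_self F y
    change areaB (E := E) y (logMap e y (e x (areaA (E := E) x ξ₀))) = 0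
    rw [h1, map_zero]
  have e1 : ∀ᶠ ξ in 𝓝 ξ₀, DifferentiableAt ℝ ψ ξ :=
    (hψ1.eventually (by simp)).mono fun ξ h => h.differentiableAt (by simp)
  have e4 : ∀ᶠ ξ in 𝓝 ξ₀, ψ ξ ∈ Metric.ball (0 : Eu E) δ := by
    refine hψ1.continuousAt.eventually_mem ?_
    rw [hψ0]
    exact Metric.ball_mem_nhds _ hδ
  have e5 : ∀ᶠ ξ in 𝓝 ξ₀, ef e y (ψ ξ) = ef e x ξ := by
    have h1 : ∀ᶠ z in 𝓝 y, logMap e y z ∈ segMin e y ∧ e y (logMap e y z) = z :=
      eventually_logMap he F.hopfRinow (area_smoothAt_diag F y)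
    filter_upwards [(area_continuous_ef he x).continuousAt.eventually h1] with ξ hξ
    refine Eq.trans ?_ hξ.2
    have h2 : (fr y (ψ ξ) : E) = logMap e y (ef e x ξ) :=
      (fr (E := E) y).apply_symm_apply (logMap e y (ef e x ξ) : E)
    exact congrArg (e y) h2
  refine ⟨_, e1.and (e4.and e5), fun S hS hS0 => ?_⟩
  have himg : ef e x '' S = ef e y '' (ψ '' S) := by
    rw [image_image]
    exact image_congr fun ξ hξ => (hS hξ).2.2.symm
  have hsub : ψ '' S ⊆ Metric.ball 0 δ := by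
    rintro _ ⟨ξ, hξ, rfl⟩
    exact (hS hξ).2.1
  have hnull : volume (ψ '' S) = 0 :=
    addHaar_image_eq_zero_of_differentiableOn_of_addHaar_eq_zero volume
      (fun ξ hξ => (hS hξ).1.differentiableWithinAt) hS0
  have hup := (hδS _ hsub).2
  rw [himg]
  rw [hnull, mul_zero] at hup
  exact le_antisymm hup zero_le

/-- the exponential map sends null sets to null sets -/
theorem null_image [CompactSpace M] [MeasurableSpace M] [BorelSpace M] (F : Facts e) (x : M)
    {S : Set (Eu E)} (hS : volume S = 0) : riemVol (finrank ℝ E) M (ef e x '' S) = 0 := by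
  choose V hV hVS using null_local F x
  obtain ⟨t, ht, htU⟩ := TopologicalSpace.countable_cover_nhds hV
  have h1 : ef e x '' S ⊆ ⋃ ξ ∈ t, ef e x '' (S ∩ V ξ) := by
    rintro _ ⟨ξ, hξ, rfl⟩
    have h2 : ξ ∈ ⋃ ζ ∈ t, V ζ := by rw [htU]; trivial
    simp only [mem_iUnion] at h2 ⊢
    obtain ⟨ζ, hζ, h3⟩ := h2
    exact ⟨ζ, hζ, mem_image_of_mem _ ⟨hξ, h3⟩⟩
  refine measure_mono_null h1 ((measure_biUnion_null_iff ht).2 fun ξ _ => ?_)
  exact hVS ξ _ inter_subset_right (measure_mono_null inter_subset_left hS)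

/-- the cut locus is a null set: the volume in exponential coordinates -/
theorem riemVol_univ [CompactSpace M] [ConnectedSpace M] [IsRiemannianManifold 𝓘(ℝ, E) M]
    [MeasurableSpace M] [BorelSpace M] (F : Facts e) {D : ℝ} (hD : 0 < D) (hB : InjGE e D)
    (hdiam : ∀ p q : M, dist p q ≤ D) (x : M) :
    riemVol (finrank ℝ E) M univ =
      ∫⁻ ξ in Metric.ball (0 : Eu E) D, ENNReal.ofReal (jac e x (fr x ξ)) := by
  rw [← area F hD hB x Metric.isOpen_ball.measurableSet le_rfl]
  refine le_antisymm ?_ (measure_mono (subset_univ _))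
  have h1 : (univ : Set M) ⊆ ef e x '' Metric.ball 0 D ∪ ef e x '' Metric.sphere 0 D := by
    intro y _
    obtain ⟨v, hv, hd⟩ := F.hopfRinow x y
    have h1 : (fr (E := E) x ((fr (E := E) x).symm (v : E)) : E) = v :=
      (fr (E := E) x).apply_symm_apply (v : E)
    have h2 : nm (E := E) x (v : E) = dist x y := hd.symm
    have h3 : ef e x ((fr (E := E) x).symm (v : E)) = y := Eq.trans (congrArg (e x) h1) hv
    have h4 : ‖(fr (E := E) x).symm (v : E)‖ ≤ D := by
      rw [← nm_fr (E := E) x, h1, h2]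
      exact hdiam _ _
    rcases h4.lt_or_eq with h5 | h5
    · exact Or.inl ⟨_, mem_ball_zero_iff.2 h5, h3⟩
    · exact Or.inr ⟨_, mem_sphere_zero_iff_norm.2 h5, h3⟩
  have h2 : volume (Metric.sphere (0 : Eu E) D) = 0 :=
    Measure.addHaar_sphere_of_ne_zero volume (0 : Eu E) hD.ne'
  refine (measure_mono h1).trans ((measure_union_le _ _).trans ?_)
  rw [null_image F x h2, add_zero]

theorem lintegral_jac_eq [CompactSpace M] (F : Facts e) (D : ℝ) (x : M) :
    (∫⁻ ξ in Metric.ball (0 : Eu E) D, ENNReal.ofReal (jac e x (fr x ξ))).toReal =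
      ∫ ξ in Metric.ball (0 : Eu E) D, jac e x (fr x ξ) := by
  have hJc : Continuous fun ξ : Eu E => jac e x (fr x ξ) :=
    area_cont_fr (contTB_jac F.isExp) x
  rw [integral_eq_lintegral_of_nonneg_ae (Eventually.of_forall fun ξ => Jac.nonneg _ _)
    hJc.aestronglyMeasurable]

theorem riemVol_toReal [CompactSpace M] [ConnectedSpace M] [IsRiemannianManifold 𝓘(ℝ, E) M]
    [MeasurableSpace M] [BorelSpace M] (F : Facts e) {D : ℝ} (hD : 0 < D) (hB : InjGE e D)
    (hdiam : ∀ p q : M, dist p q ≤ D) (x : M) :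
    (riemVol (finrank ℝ E) M univ).toReal =
      ∫ ξ in Metric.ball (0 : Eu E) D, jac e x (fr x ξ) := by
  rw [riemVol_univ F hD hB hdiam x, lintegral_jac_eq F D x]

theorem vol_eq {N : ℕ} (hN : finrank ℝ E = N + 1) [MeasurableSpace M] [BorelSpace M] :
    Blaschke.riemannianVolume (N + 1) M = riemVol (finrank ℝ E) M := by
  rw [hN, riemVol_eq]

/-- **finiteness** -/
theorem vol_ne_top [CompactSpace M] [ConnectedSpace M] [IsRiemannianManifold 𝓘(ℝ, E) M]
    [MeasurableSpace M] [BorelSpace M] (F : Facts e) {D : ℝ} (hD : 0 < D) (hB : InjGE e D)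
    {N : ℕ} (hN : finrank ℝ E = N + 1) : Blaschke.riemannianVolume (N + 1) M univ ≠ ⊤ := by
  rw [vol_eq hN]
  have := riemVol_finite F hD hB
  exact measure_ne_top _ _

/-- **the volume in exponential coordinates** -/
theorem vol_toReal [CompactSpace M] [ConnectedSpace M] [IsRiemannianManifold 𝓘(ℝ, E) M]
    [MeasurableSpace M] [BorelSpace M] (F : Facts e) {D : ℝ} (hD : 0 < D) (hB : InjGE e D)
    (hdiam : ∀ p q : M, dist p q ≤ D) {N : ℕ} (hN : finrank ℝ E = N + 1) (x : M) :
    (Blaschke.riemannianVolume (N + 1) M univ).toReal =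
      ∫ ξ in Metric.ball (0 : Eu E) D, jac e x (fr x ξ) := by
  rw [vol_eq hN, riemVol_toReal F hD hB hdiam x]

theorem integrableOn_jac [CompactSpace M] (F : Facts e) (D : ℝ) (x : M) :
    IntegrableOn (fun ξ : Eu E => jac e x (fr x ξ)) (Metric.ball 0 D) := by
  have hJc : Continuous fun ξ : Eu E => jac e x (fr x ξ) :=
    area_cont_fr (contTB_jac F.isExp) x
  exact (hJc.continuousOn.integrableOn_compact (isCompact_closedBall 0 D)).mono_set
    Metric.ball_subset_closedBall

/-- **the total volume** -/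
theorem vol_total [CompactSpace M] [ConnectedSpace M] [IsRiemannianManifold 𝓘(ℝ, E) M]
    [MeasurableSpace M] [BorelSpace M] (F : Facts e) {D : ℝ} (hD : 0 < D) (hB : InjGE e D)
    (hdiam : ∀ p q : M, dist p q ≤ D) {N : ℕ} (hN : finrank ℝ E = N + 1) (p : M) :
    Blaschke.riemannianVolume (N + 1) M univ ≠ ⊤ ∧
      IntegrableOn (fun ξ : Eu E => jac e p (fr p ξ)) (Metric.ball 0 D) ∧
      ∫ ξ in Metric.ball (0 : Eu E) D, jac e p (fr p ξ) =
        (Blaschke.riemannianVolume (N + 1) M univ).toReal :=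
  ⟨vol_ne_top F hD hB hN, integrableOn_jac F D p, (vol_toReal F hD hB hdiam hN p).symm⟩

end

end Vale.Agent.P231.WH
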